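import Crest.Agent.X262.Lat.Defs
import Crest.Agent.X262.Kah.BrgA
import Crest.Agent.X262.Frm.Typ
import Crest.Agent.X277.BD.BrA

/-!
# Row 262, LAT (helper31): smooth line bundles which are algebraic

* `Iso X a q s` : the image of the field of projectors `q` is `O(a)`; `s g` is the frame given by
  the local generator `g`;
* `L11AStmt`    : a smooth line bundle whose class has type `(1,1)` is algebraic.
-/

set_option autoImplicit false

open scoped Matrix

noncomputable section

namespace Crest.Agent.X262.Lat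

open Crest.Agent.R208.CW Crest.Agent.X262.Man Crest.Agent.X262.Kah
open Crest.Agent.X277 Crest.Agent.X277.Lef Crest.Agent.X277.AN.G1 Crest.Agent.X277.BD
open Crest.Agent.X277.BD.Br Crest.Agent.R275.Geo

/-- the image of `q` is the line bundle `O(a)` -/
structure Iso {F : Type} [Field F] [Algebra ℂ F] {P : PModel ℂ F} {n : ℕ} (X : AnP P n)
    (a : BD ℂ F) {N : Type} [Fintype N] (q : Pts P → Matrix N N ℂ) (s : F → Pts P → N → ℂ) :
    Prop where
  sm : ∀ g, SmOn X.A {x | At a x g} (s g)
  mem : ∀ x g, At a x g → q x *ᵥ s g x = s g x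
  ne : ∀ x g, At a x g → s g x ≠ 0
  tr : ∀ x g g', At a x g → At a x g' → s g' x = ev (g' / g) x • s g x

/-- the form `u` has type `(p, q)` in all charts -/
def TyC {n : ℕ} {M : Type} [TopologicalSpace M] {A : Atl n M} (p q : ℕ) (u : FS A) : Prop :=
  ∀ i, ∀ z ∈ (A.e i).target, Frm.IsType (Frm.Jc (Cn n)) p q (u.1 i z)

/-- Lefschetz's theorem on `(1,1)`-classes, for line bundles -/
def L11AStmt : Prop := ∀ (F : Type) [Field F] [Algebra ℂ F] (P : PModel ℂ F) (n : ℕ)
  (_ : Module.Basis (Fin n) F Ω[F⁄ℂ]) (X : AnP P n) (E : Type) [NormedAddCommGroup E]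
  [NormedSpace ℝ E] [FiniteDimensional ℝ E] (ε : Emb X.A E) (N : Type) [Fintype N] [DecidableEq N]
  (Q : E → Matrix N N ℂ) (h : Ln ε.X Q) (u : ZF X.A), TyC 1 1 u.1 → toH ε u = h.c1 →
    ∃ a ∈ On P, ∃ s, Iso X a (fun x => Q (ε.j x)) s

end Crest.Agent.X262.Lat
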