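import Crest.Agent.X262.Lat.Main
import Crest.Agent.X262.PL.C1
import Crest.Agent.X262.L11a5.Main

/-!
# Row 262, LAT (helper31): the first Chern class of `PL/C1`

* `c1Cd : C1Cd PL.c1`; `l11`.
-/

set_option autoImplicit false

noncomputable section

namespace Crest.Agent.X262.Lat

open Crest.Agent.R208.CW
open Crest.Agent.X262.Man Crest.Agent.X262.Kah
open Crest.Agent.X277 Crest.Agent.X277.AN.G1

theorem c1Cd : C1Cd PL.c1 := by
  intro X a A c h ha
  choose g hg using ha
  refine PL.Crv.c1_eq (P := X.P) ⟨g, fun x => A (g x), h.ec.sm, h.deg, hg, fun x => h.deg1 _,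
    fun x => (hg x).eventually.mono fun y hy => ⟨h.sm y _ hy, h.cur y _ hy, ?_⟩⟩
  have h1 := LP.mem_of_ne (hy.ev_div_ne (hg y))
  exact (h.chg y _ _ (hg y) hy _ ((PL.fa_sm h1).of_le R208.CW.one_le_inf)
    ((eventually_mem h1).mono fun z hz => PL.fa_j hz)).trans (map_add _ _ _)

/-- **Lefschetz's theorem on `(1,1)`-classes** -/
theorem l11 : (thOf typP PL.c1 LamP).L11 := l11_of L11a5.l11aStmt c1Cd

end Crest.Agent.X262.Lat
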