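import Crest.Agent.X262.Kah.FS
import Crest.Agent.X262.Frm.Typ
import Crest.Agent.X262.Coh.Defs
import Crest.Agent.X262.Surf.Defs
import Crest.Agent.R275.ChiM_825
import Crest.Agent.R275.EDRMV_890

/-!
# Row 262, LAT (helper31): the three parts of Noether's formula

* `Zk A k`, `bet A k` : closed forms of degree `k`, Betti numbers;
* `EulStmt`, `IrrStmt`, `NoeAStmt`; `noe_of` : `b₂ + K² + 8 q = 10 + 12 p_g`.
-/

set_option autoImplicit false

open Module

noncomputable section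

namespace Crest.Agent.X262.Lat

open Crest.Agent.X262.Kah Crest.Agent.X262.Surf
open Crest.Agent.X277 Crest.Agent.X277.Lef Crest.Agent.X277.AN.G1 Crest.Agent.X277.BD
open Crest.Agent.X277.BD.Br Crest.Agent.R275.Geo
open Crest.Agent.R275.ChiM825 (hq)
open Crest.Agent.R275.Core144 (LB)
open Crest.Agent.R275.EDR890 (nerveChi)

section Bet

variable {n : ℕ} {M : Type} [TopologicalSpace M]

/-- closed forms of degree `k` -/
def Zk (A : Atl n M) (k : ℕ) : Submodule ℂ (FS A) :=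
  LinearMap.ker (dF A) ⊓ ⨅ (i : A.ι) (z : Cn n), (Frm.Dg (Cn n) k).comap (FS.ev i z)

theorem mem_Zk {A : Atl n M} {k : ℕ} {u : FS A} :
    u ∈ Zk A k ↔ dF A u = 0 ∧ ∀ i z, u.1 i z ∈ Frm.Dg (Cn n) k := by
  simp only [Zk, Submodule.mem_inf, LinearMap.mem_ker, Submodule.mem_iInf, Submodule.mem_comap]
  rfl

/-- the Betti numbers -/
def bet (A : Atl n M) (k : ℕ) : ℕ :=
  finrank ℂ (Zk A k ⧸ (LinearMap.range (dF A)).comap (Zk A k).subtype)

/-- the Euler characteristic of the nerve of the atlas -/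
def nv (A : Atl n M) [Fintype A.ι] : ℤ := nerveChi (fun i => (A.e i).source) Finset.univ

end Bet

/-- the Euler number -/
def EulStmt : Prop := ∀ (F : Type) [Field F] [Algebra ℂ F] (P : PModel ℂ F) (_ : B2 F)
  (X : AnP P 2) [Fintype X.A.ι], nv X.A = 2 - 2 * bet X.A 1 + bet X.A 2

/-- the irregularity -/
def IrrStmt : Prop := ∀ (F : Type) [Field F] [Algebra ℂ F] (P : PModel ℂ F) (_ : B2 F)
  (X : AnP P 2), bet X.A 1 = 2 * finrank ℂ (Coh.sv P).R1 ∧
    hq 1 (1 : LB X.A) = finrank ℂ (Coh.sv P).R1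

/-- Noether's formula -/
def NoeAStmt : Prop := ∀ (F : Type) [Field F] [Algebra ℂ F] [Algebra.EssFiniteType ℂ F]
  (P : PModel ℂ F) (b : B2 F) (X : AnP P 2) [Fintype X.A.ι],
    12 * (1 - (hq 1 (1 : LB X.A) : ℤ) + finrank ℂ (kP P b).Sec) = bnum [kP P b, kP P b] + nv X.A

theorem noe_of (h1 : EulStmt) (h2 : IrrStmt) (h3 : NoeAStmt) {F : Type} [Field F] [Algebra ℂ F]
    [Algebra.EssFiniteType ℂ F] {P : PModel ℂ F} (b : B2 F) (X : AnP P 2) :
    (bet X.A 2 : ℤ) + bnum [kP P b, kP P b] + 8 * finrank ℂ (Coh.sv P).R1 =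
      10 + 12 * finrank ℂ (kP P b).Sec := by
  let _ := Fintype.ofFinite X.A.ι
  have e1 := h1 F P b X
  obtain ⟨e2, e3⟩ := h2 F P b X
  have e4 := h3 F P b X
  rw [e1, e2, e3] at e4
  push_cast at e4
  linarith

end Crest.Agent.X262.Lat
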