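import Crest.Agent.X262.Lat.IDefs
import Crest.Agent.X262.Man.Lin
import Crest.Agent.X262.PL.Ang

/-!
# Row 262, LAT (helper31): the connection form of a frame of a smooth line bundle

* `prj s`  : the orthogonal projector on the line of `s`; `eq_prj`;
* `cn s`   : the connection form `Im (σ ds) / 2π` of the frame `s`;
* `h.fm`   : the real Chern form, `h.rcl_fm : rcl h.ec = h.c1`;
* `res_d_cn` : `d (cn s) + fm Q = 0` along `X`; `res_cn` : `cn (g s) = cn s + ang g` along `X`.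
-/

set_option autoImplicit false
set_option linter.unusedSectionVars false

open Filter Topology Complex Matrix
open scoped ContDiff ComplexOrder

noncomputable section

namespace Crest.Agent.X262.Lat

open Crest.Agent.R208.F Crest.Agent.R208.FI Crest.Agent.R208.CW Crest.Agent.R208.T
open Crest.Agent.X262.Man Crest.Agent.X262.PL

variable {N : Type} [Fintype N] [DecidableEq N]

/-! ### linear algebra -/

/-- a vector as a column -/
def colv (s : N → ℂ) : Matrix N Unit ℂ := Matrix.of fun i _ => s i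

/-- the dual row -/
def drow (s : N → ℂ) : Matrix Unit N ℂ := Matrix.of fun _ j => (star s ⬝ᵥ s)⁻¹ * star (s j)

/-- the orthogonal projector on a line -/
def prj (s : N → ℂ) : Matrix N N ℂ := colv s * drow s

variable {s : N → ℂ}

theorem nq_ne (h : s ≠ 0) : star s ⬝ᵥ s ≠ 0 := fun h0 => h (dotProduct_star_self_eq_zero.1 h0)

theorem star_nq (s : N → ℂ) : star (star s ⬝ᵥ s) = star s ⬝ᵥ s := by
  rw [← star_dotProduct_star, star_star, dotProduct_comm]

theorem prj_apply (s : N → ℂ) (i j : N) : prj s i j = s i * ((star s ⬝ᵥ s)⁻¹ * star (s j)) := by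
  simp [prj, colv, drow, Matrix.mul_apply]

theorem drow_colv (h : s ≠ 0) : drow s * colv s = 1 := by
  ext i j
  simp only [drow, colv, Matrix.mul_apply, Matrix.of_apply, mul_assoc, ← Finset.mul_sum]
  rw [Subsingleton.elim i j, Matrix.one_apply_eq]
  exact inv_mul_cancel₀ (nq_ne h)

theorem prj_idem (h : s ≠ 0) : prj s * prj s = prj s := by
  rw [prj, Matrix.mul_assoc, ← Matrix.mul_assoc (drow s), drow_colv h, Matrix.one_mul]

theorem prj_herm (s : N → ℂ) : (prj s)ᴴ = prj s := by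
  ext i j
  rw [Matrix.conjTranspose_apply, prj_apply, prj_apply, star_mul', star_mul', star_inv₀, star_nq,
    star_star]
  ring

theorem prj_trace (h : s ≠ 0) : (prj s).trace = 1 := by
  rw [prj, Matrix.trace_mul_comm, drow_colv h]
  simp

theorem mul_colv (Q : Matrix N N ℂ) (s : N → ℂ) : Q * colv s = colv (Q *ᵥ s) := rfl

theorem prj_mulVec (h : s ≠ 0) : prj s *ᵥ s = s := by
  have h1 : prj s * colv s = colv s := by
    rw [prj, Matrix.mul_assoc, drow_colv h, Matrix.mul_one]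
  exact funext fun i => congrFun (congrFun h1 i) ()

theorem eq_prj {Q : Matrix N N ℂ} (h1 : Q * Q = Q) (h2 : Qᴴ = Q) (h3 : Q.trace = 1)
    (h4 : Q *ᵥ s = s) (h : s ≠ 0) : Q = prj s := by
  have e1 : Q * prj s = prj s := by rw [prj, ← Matrix.mul_assoc, mul_colv, h4]
  have e2 : prj s * Q = prj s := by
    have := congrArg Matrix.conjTranspose e1
    rwa [Matrix.conjTranspose_mul, h2, prj_herm] at this
  refine sub_eq_zero.1 (Matrix.trace_conjTranspose_mul_self_eq_zero_iff.1 ?_)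
  rw [Matrix.conjTranspose_sub, h2, prj_herm, sub_mul, mul_sub, mul_sub, h1, e1, e2, prj_idem h,
    sub_self, sub_zero, Matrix.trace_sub, h3, prj_trace h, sub_self]

theorem colv_smul (c : ℂ) (s : N → ℂ) : colv (c • s) = colv s * Matrix.of fun _ _ : Unit => c := by
  ext i j
  simp [colv, Matrix.mul_apply, mul_comm]

theorem drow_smul {c : ℂ} (hc : c ≠ 0) (s : N → ℂ) :
    drow (c • s) = (Matrix.of fun _ _ : Unit => c⁻¹) * drow s := by
  ext i j
  have h1 : star c ≠ 0 := star_ne_zero.2 hc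
  simp only [drow, Matrix.mul_apply, Matrix.of_apply, Fintype.sum_unique, star_smul,
    smul_dotProduct, dotProduct_smul, smul_eq_mul, Pi.smul_apply, star_mul', mul_inv]
  field_simp

theorem prj_smul {c : ℂ} (hc : c ≠ 0) (h : s ≠ 0) : prj (c • s) = prj s :=
  (eq_prj (prj_idem h) (prj_herm s) (prj_trace h) (by rw [mulVec_smul, prj_mulVec h])
    (smul_ne_zero hc h)).symm

/-! ### smoothness -/

section smooth

variable {G : Type} [NormedAddCommGroup G] [NormedSpace ℝ G] {s : G → N → ℂ} {x : G}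
  {k : WithTop ℕ∞}

theorem sm_colv (h : ContDiffAt ℝ k s x) : SM k (fun y => colv (s y)) x :=
  fun i _ => contDiffAt_pi.1 h i

theorem sm_drow (h : ContDiffAt ℝ k s x) (h0 : s x ≠ 0) : SM k (fun y => drow (s y)) x := by
  have h1 : ∀ j, ContDiffAt ℝ k (fun y => star (s y j)) x := fun j =>
    (Complex.conjCLE : ℂ ≃L[ℝ] ℂ).contDiff.contDiffAt.comp x (contDiffAt_pi.1 h j)
  have h2 : ContDiffAt ℝ k (fun y => star (s y) ⬝ᵥ s y) x :=
    ContDiffAt.sum fun j _ => (h1 j).mul (contDiffAt_pi.1 h j)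
  exact fun _ j => (h2.inv (nq_ne h0)).mul (h1 j)

theorem sm_prj (h : ContDiffAt ℝ k s x) (h0 : s x ≠ 0) : SM k (fun y => prj (s y)) x :=
  (sm_colv h).mul (sm_drow h h0)

end smooth

/-! ### the connection form -/

variable {E : Type} [NormedAddCommGroup E] [NormedSpace ℝ E] [FiniteDimensional ℝ E] {X : Set E}
  {d : ℕ} {x : E}

theorem DD_congr {m l : Type*} {A B : E → Matrix m l ℂ} (h : A =ᶠ[𝓝 x] B) : DD A x = DD B x :=
  Matrix.ext fun i j => dC_congr (h.mono fun y hy => by simp only [hy])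

theorem dl_congr' (hX : Sub d X) (hx : x ∈ X) {m l : Type*} [Fintype m] [Fintype l]
    {A B : E → Matrix m l ℂ} (hA : SM 1 A x) (hB : SM 1 B x)
    (h : ∀ᶠ y in 𝓝 x, y ∈ X → A y = B y) : dl X A x = dl X B x :=
  Matrix.ext fun i j => rs_dC_congr hX hx (CD.of_fun (hA i j)) (CD.of_fun (hB i j))
    (h.mono fun y hy hy' => by simp only [hy hy'])

/-- the complex connection form of a frame -/
def th (σ : E → Matrix Unit N ℂ) (s : E → Matrix N Unit ℂ) (y : E) : CF E :=
  (hat E (σ y) * DD s y).trace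

/-- the curvature (proof by helper5) -/
theorem d_th {σ : E → Matrix Unit N ℂ} {s : E → Matrix N Unit ℂ}
    (hσ : SM 1 σ x) (hs : SM 2 s x) (h1 : ∀ᶠ y in 𝓝 x, σ y * s y = 1) :
    dC (th σ s) x = sf 1 (fun y => s y * σ y) x := by
  have hs1 : SM 1 s x := hs.of_le (by norm_num)
  have hD : MD 1 (DD s) x := hs.MD_DD (by norm_num)
  have e1 : dC (th σ s) x = (DD σ x * DD s x).trace := by
    change dC (fun y => (hat E (σ y) * DD s y).trace) x = _
    rw [dC_trace (hσ.hat.mul hD), dM_mul hσ.hat hD, dM_DD hs, Matrix.mul_zero, add_zero]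
    rfl
  have e2 : DD (fun y => s y * σ y) x = DD s x * hat E (σ x) + hat E (s x) * DD σ x :=
    DD_mul hs1 hσ
  have e3 : DD σ x * hat E (s x) = - (hat E (σ x) * DD s x) := by
    rw [eq_neg_iff_add_eq_zero, ← DD_mul hσ hs1, DD_congr h1, DD_const]
  have e4 : hat E (σ x) * hat E (s x) = 1 := by rw [← hat_mul, h1.self_of_nhds, hat_one]
  set t := hat E (σ x) * DD s x with ht
  have e5 : t * t = 0 := by
    have h2 : invC (t () ()) = - t () () := by
      have h3 : invM t = - t := by rw [ht, invM_mul, invM_hat, invM_DD, Matrix.mul_neg]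
      exact congrFun (congrFun h3 ()) ()
    have h3 := odd_commC h2 (t () ())
    rw [h2, neg_mul, eq_neg_iff_add_eq_zero, ← two_smul ℂ] at h3
    ext i j : 1
    rw [Matrix.mul_apply, Fintype.sum_unique]
    exact (smul_eq_zero.1 h3).resolve_left two_ne_zero
  have e6 : hat E (σ x) * DD (fun y => s y * σ y) x = t * hat E (σ x) + DD σ x := by
    rw [e2, Matrix.mul_add, ← Matrix.mul_assoc, ← Matrix.mul_assoc, e4, Matrix.one_mul]
  have e7 : DD (fun y => s y * σ y) x * hat E (s x) = DD s x - hat E (s x) * t := by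
    rw [e2, Matrix.add_mul, Matrix.mul_assoc, Matrix.mul_assoc, e4, Matrix.mul_one, e3,
      Matrix.mul_neg, sub_eq_add_neg]
  rw [e1, sf, hat_mul, Matrix.mul_assoc, trace_hat_comm, mul_one, pow_two,
    ← Matrix.mul_assoc, Matrix.mul_assoc, e6, e7, Matrix.add_mul, Matrix.mul_sub, Matrix.mul_sub,
    Matrix.mul_assoc t, Matrix.mul_assoc t, ← ht, ← Matrix.mul_assoc (hat E (σ x)), e4,
    Matrix.one_mul, sub_self, zero_add, ← Matrix.mul_assoc (DD σ x), e3, Matrix.neg_mul, e5,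
    neg_zero, sub_zero]

/-- the complex connection form of a frame -/
def tc (s : E → N → ℂ) : E → CF E := th (fun y => drow (s y)) fun y => colv (s y)

/-- the connection form of a frame -/
def cn (s : E → N → ℂ) (y : E) : Ext E := (2 * Real.pi)⁻¹ • (tc s y).im

/-- the real Chern form -/
def fm (Q : E → Matrix N N ℂ) (y : E) : Ext E := (kap • sf 1 Q y).re

variable {s s' : E → N → ℂ} {Q : E → Matrix N N ℂ}

theorem kap_re : kap.re = 0 := by
  rw [kap, show (2 * Real.pi : ℂ) = ((2 * Real.pi : ℝ) : ℂ) by push_cast; rfl, div_ofReal_re, I_re,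
    zero_div]

theorem kap_im : kap.im = (2 * Real.pi)⁻¹ := by
  rw [kap, show (2 * Real.pi : ℂ) = ((2 * Real.pi : ℝ) : ℂ) by push_cast; rfl, div_ofReal_im, I_im,
    one_div]

theorem fm_eq (Q : E → Matrix N N ℂ) (y : E) : fm Q y = -((2 * Real.pi)⁻¹ • (sf 1 Q y).im) := by
  rw [fm, Cx.csmul_re, kap_re, kap_im, zero_smul, zero_sub]

theorem cd_tc (h : ContDiffAt ℝ ∞ s x) (h0 : s x ≠ 0) : CD ∞ (tc s) x :=
  ((sm_drow h h0).hat.mul ((sm_colv h).MD_DD inf_add_one)).trace

theorem contDiffAt_cn (h : ContDiffAt ℝ ∞ s x) (h0 : s x ≠ 0) : ContDiffAt ℝ ∞ (cn s) x :=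
  (cd_tc h h0).im.const_smul _

theorem inv_cn (s : E → N → ℂ) (y : E) : inv (cn s y) = -cn s y := by
  have h : invC (tc s y) = -tc s y := by
    rw [tc, th, invC_trace, invM_mul, invM_hat, invM_DD, Matrix.mul_neg, Matrix.trace_neg]
  rw [cn, map_smul, ← smul_neg]
  exact congrArg _ (congrArg Cx.im h)

theorem isDeg_fm (Q : E → Matrix N N ℂ) : Hom 2 (fm Q) := fun y => by
  rw [fm_eq, ← neg_smul]
  exact (degC_sf 1 Q y).2.smul _

theorem Ln.ec (h : Ln X Q) : EC X (fm Q) := by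
  have h1 := mem_Z_iff.1 ((Z X).smul_mem (sf_mem_Z_gen h.idf 1) kap)
  exact ⟨h1.1.1, h1.1.2.1, h1.1.2.2⟩

theorem Ln.rcl_fm (hX : Sub d X) (h : Ln X Q) : rcl h.ec = h.c1 := by
  have h1 := mem_Z_iff.1 ((Z X).smul_mem (sf_mem_Z_gen h.idf 1) kap)
  have h2 : EC X fun y => (kap • sf 1 Q y).im := ⟨h1.2.1, h1.2.2.1, h1.2.2.2⟩
  have h3 : h.c1 = rcl h.ec + I • rcl h2 := by
    rw [← cls_eq_rcl, Ln.c1, ← cls_smul]
    rfl
  have h4 := h.conj_c1 hX
  have h5 : ∀ {a : E → Ext E} (ha : EC X a), H.conj X (rcl ha) = rcl ha := fun ha => by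
    rw [rcl, H.conj_cls]
    exact cls_of_eq _ _ (funext fun x => Cx.ext rfl neg_zero)
  rw [h3, map_add, H.conj_smul, h5, h5, conj_I, add_right_inj, neg_smul, neg_eq_iff_add_eq_zero,
    ← two_smul ℂ] at h4
  rw [h3, (smul_eq_zero.1 h4).resolve_left two_ne_zero, add_zero]

/-- the curvature of a frame of `Q` -/
theorem rs_d_tc (hX : Sub d X) (hx : x ∈ X) (h : Ln X Q) (hs : ContDiffAt ℝ ∞ s x) (h0 : s x ≠ 0)
    (hQ : ∀ᶠ y in 𝓝 x, y ∈ X → Q y *ᵥ s y = s y) : rs X x (dC (tc s) x) = rs X x (sf 1 Q x) := by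
  have h1 : ∀ᶠ y in 𝓝 x, s y ≠ 0 := hs.continuousAt.eventually_ne h0
  have h2 : ∀ᶠ y in 𝓝 x, y ∈ X → prj (s y) = Q y := by
    filter_upwards [h1, hQ] with y hy hy' hyX
    exact (eq_prj (h.idf.idem y hyX) (h.herm y hyX) (h.tr y hyX) (hy' hyX) hy).symm
  rw [tc, d_th ((sm_drow hs h0).of_le one_le_inf) ((sm_colv hs).of_le two_le)
    (h1.mono fun y hy => drow_colv hy), rs_sf, rs_sf, ← h2.self_of_nhds hx,
    ← dl_congr' hX hx ((sm_prj hs h0).of_le one_le_inf) (h.idf.s1 hx) h2]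
  rfl

theorem res_d_cn (hX : Sub d X) (hx : x ∈ X) (h : Ln X Q) (hs : ContDiffAt ℝ ∞ s x) (h0 : s x ≠ 0)
    (hQ : ∀ᶠ y in 𝓝 x, y ∈ X → Q y *ᵥ s y = s y) :
    pb (Tan X x).subtype (R208.F.d (cn s) x + fm Q x) = 0 := by
  have h1 : pb (Tan X x).subtype (R208.F.d (fun y => (tc s y).im) x) =
      pb (Tan X x).subtype (sf 1 Q x).im := congrArg Cx.im (rs_d_tc hX hx h hs h0 hQ)
  have h2 : R208.F.d (cn s) x = (2 * Real.pi)⁻¹ • R208.F.d (fun y => (tc s y).im) x :=
    d_const_smul _ ((cd_tc hs h0).im.differentiableAt (by simp))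
  rw [h2, fm_eq, map_add, map_neg, map_smul, map_smul, h1, add_neg_cancel]

theorem tc_smul {g : E → ℂ} (hs : ContDiffAt ℝ 1 s x) (h0 : s x ≠ 0) (hg : ContDiffAt ℝ 1 g x)
    (hg0 : g x ≠ 0) : tc (fun y => g y • s y) x = tc s x + dz ((g x)⁻¹ • fderiv ℝ g x) := by
  have h1 : SM 1 (fun y => Matrix.of fun _ _ : Unit => g y) x := fun _ _ => hg
  have h2 : hat E (Matrix.of fun _ _ : Unit => g x) * hat E (Matrix.of fun _ _ : Unit => (g x)⁻¹) =
      1 := by
    rw [← hat_mul, ← hat_one]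
    congr 1
    ext i j
    simp [Matrix.mul_apply, hg0]
  simp only [tc, th, colv_smul]
  rw [drow_smul hg0, DD_mul (sm_colv hs) h1, hat_mul, Matrix.mul_add, Matrix.trace_add,
    Matrix.mul_assoc, trace_hat_comm, Matrix.mul_assoc, Matrix.mul_assoc, h2, Matrix.mul_one,
    Matrix.mul_assoc, ← Matrix.mul_assoc (hat E (drow (s x))), ← hat_mul, drow_colv h0, hat_one,
    Matrix.one_mul, map_smul, ← dC_fun (hg.differentiableAt one_ne_zero).hasFDerivAt]
  congr 1
  rw [Matrix.trace, Fintype.sum_unique, Matrix.diag_apply, Matrix.mul_apply, Fintype.sum_unique,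
    Algebra.smul_def]
  rfl

theorem cn_smul {g : E → ℂ} (hs : ContDiffAt ℝ 1 s x) (h0 : s x ≠ 0) (hg : ContDiffAt ℝ 1 g x)
    (hg0 : g x ≠ 0) : cn (fun y => g y • s y) x = cn s x + ang g x := by
  rw [cn, tc_smul hs h0 hg hg0, Cx.add_im, smul_add, ang_eq, dz_im]
  rfl

theorem res_cn_congr (hX : Sub d X) (hx : x ∈ X) (hs : ContDiffAt ℝ 1 s x)
    (hs' : ContDiffAt ℝ 1 s' x) (h : ∀ᶠ y in 𝓝 x, y ∈ X → s y = s' y) :
    pb (Tan X x).subtype (cn s x) = pb (Tan X x).subtype (cn s' x) := by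
  have h1 : rs X x (tc s x) = rs X x (tc s' x) := by
    have h2 := dl_congr' hX hx (sm_colv hs) (sm_colv hs') (h.mono fun y hy hy' => by rw [hy hy'])
    rw [tc, tc, th, th, rs_trace, rs_trace, rsM_mul, rsM_mul, h.self_of_nhds hx]
    exact congrArg (fun A => (rsM X x (hat E (drow (s' x))) * A).trace) h2
  rw [cn, cn, map_smul, map_smul]
  exact congrArg _ (congrArg Cx.im h1)

/-- change of frame -/
theorem res_cn (hX : Sub d X) (hx : x ∈ X) {g : E → ℂ} (hs : ContDiffAt ℝ 1 s x) (h0 : s x ≠ 0)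
    (hs' : ContDiffAt ℝ 1 s' x) (hg : ContDiffAt ℝ 1 g x) (hg0 : g x ≠ 0)
    (h : ∀ᶠ y in 𝓝 x, y ∈ X → s' y = g y • s y) :
    pb (Tan X x).subtype (cn s' x) = pb (Tan X x).subtype (cn s x + ang g x) := by
  rw [res_cn_congr (s' := fun y => g y • s y) hX hx hs' (hg.smul hs) h, cn_smul hs h0 hg hg0]

end Crest.Agent.X262.Lat
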