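import Crest.Agent.R208.CW4
import Crest.Agent.R208.CW1d

/-!
# Row 262, LAT (helper31): integral classes of degree two

* `Ln X Q`  : a smooth field of hermitian projectors of rank one along `X`;
* `h.c1`    : its first Chern class `(i / 2π) [tr (Q dQ dQ)]`;
* `Lam X`   : the group generated by these classes; `mem_Lam` : one projector is enough;
* `Lam.conj`, `Lam.map` : the classes are real and stable under pull-back.
-/

set_option autoImplicit false
set_option linter.unusedSectionVars false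

open scoped ContDiff Kronecker Matrix
open Complex

noncomputable section

namespace Crest.Agent.X262.Lat

open Crest.Agent.R208.F Crest.Agent.R208.FI Crest.Agent.R208.CW

variable {E : Type} [NormedAddCommGroup E] [NormedSpace ℝ E] [FiniteDimensional ℝ E]
  {E' : Type} [NormedAddCommGroup E'] [NormedSpace ℝ E'] [FiniteDimensional ℝ E']
  {X : Set E} {Y : Set E'} {n m : Type} [Fintype n] [DecidableEq n] [Fintype m] [DecidableEq m]
  {Q : E → Matrix n n ℂ} {Q' : E → Matrix m m ℂ} {d d' : ℕ}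

/-- a smooth field of hermitian projectors of rank one along `X` -/
structure Ln (X : Set E) (Q : E → Matrix n n ℂ) : Prop where
  idf : IdF X Q
  herm : ∀ x ∈ X, (Q x)ᴴ = Q x
  tr : ∀ x ∈ X, (Q x).trace = 1

/-- the constant `i / 2π` -/
def kap : ℂ := I / (2 * Real.pi)

/-- the first Chern class -/
def Ln.c1 (h : Ln X Q) : H X := kap • cls (sf 1 Q) (sf_mem_Z_gen h.idf 1)

/-- the integral classes of degree two -/
def Lam (X : Set E) : AddSubgroup (H X) :=
  AddSubgroup.closure {a | ∃ (n : Type) (_ : Fintype n) (_ : DecidableEq n)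
    (Q : E → Matrix n n ℂ) (h : Ln X Q), a = h.c1}

theorem kap_ne : kap ≠ 0 :=
  div_ne_zero I_ne_zero (mul_ne_zero two_ne_zero (ofReal_ne_zero.2 Real.pi_ne_zero))

theorem conj_kap : starRingEnd ℂ kap = -kap := by
  simp [kap, neg_div, map_ofNat]

namespace Ln

theorem c1_eq (hX : Sub d X) (h : Ln X Q) : h.c1 = kap • sc hX h.idf 1 := rfl

theorem c1_mem (h : Ln X Q) : h.c1 ∈ Lam X :=
  AddSubgroup.subset_closure ⟨n, _, _, Q, h, rfl⟩

theorem rank (h : Ln X Q) {x : E} (hx : x ∈ X) : (Q x).rank = 1 := by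
  have := rank_eq_trace (h.idf.idem x hx)
  rw [h.tr x hx] at this
  exact_mod_cast this

theorem sc_zero (hX : Sub d X) (h : Ln X Q) : sc hX h.idf 0 = 1 := by
  rw [sc_zero_of_rank hX h.idf fun x hx => h.rank hx, Nat.cast_one]

theorem kron (h : Ln X Q) (h' : Ln X Q') : Ln X fun y => Q y ⊗ₖ Q' y where
  idf := h.idf.kron h'.idf
  herm x hx := by rw [Matrix.conjTranspose_kronecker, h.herm x hx, h'.herm x hx]
  tr x hx := by rw [Matrix.trace_kronecker, h.tr x hx, h'.tr x hx, one_mul]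

theorem c1_kron (hX : Sub d X) (h : Ln X Q) (h' : Ln X Q') : (h.kron h').c1 = h.c1 + h'.c1 := by
  have h1 := sc_kron hX h.idf h'.idf 1
  simp only [Finset.sum_range_succ, Finset.range_zero, Finset.sum_empty, zero_add,
    Nat.choose_zero_right, Nat.cast_one, one_mul, Nat.choose_self, Nat.sub_zero, Nat.sub_self,
    h.sc_zero hX, h'.sc_zero hX, mul_one] at h1
  rw [c1_eq hX, c1_eq hX, c1_eq hX, h1, smul_add, add_comm]

theorem conj (h : Ln X Q) : Ln X fun y => (Q y).map (starRingEnd ℂ) where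
  idf := h.idf.conj
  herm x hx := by
    ext i j
    have := congrFun (congrFun (h.herm x hx) i) j
    simp only [Matrix.conjTranspose_apply, Matrix.map_apply] at this ⊢
    rw [← this]
    rfl
  tr x hx := by
    have : ((Q x).map (starRingEnd ℂ)).trace = starRingEnd ℂ (Q x).trace :=
      (map_sum (starRingEnd ℂ) _ _).symm
    rw [this, h.tr x hx, map_one]

theorem c1_conj (hX : Sub d X) (h : Ln X Q) : h.conj.c1 = -h.c1 := by
  rw [c1_eq hX, c1_eq hX, sc_conj' hX h.idf 1, pow_one, neg_one_mul, smul_neg]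

theorem one (X : Set E) : Ln X fun _ => (1 : Matrix Unit Unit ℂ) where
  idf := ⟨fun _ _ => SM.const _, fun _ _ => mul_one _⟩
  herm _ _ := Matrix.conjTranspose_one
  tr _ _ := by simp

theorem c1_one (hX : Sub d X) : (one X).c1 = 0 := by
  rw [c1_eq hX, sc_const hX _ le_rfl, smul_zero]

theorem conj_c1 (hX : Sub d X) (h : Ln X Q) : H.conj X h.c1 = h.c1 := by
  rw [c1_eq hX, H.conj_smul, conj_sc, conj_kap, pow_one, neg_one_mul, smul_neg, neg_smul, neg_neg]

theorem comp {R : E' → Matrix n n ℂ} (h : Ln Y R) {f : E → E'} (hf : SMap X Y f) :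
    Ln X fun x => R (f x) :=
  ⟨h.idf.comp hf, fun _ hx => h.herm _ (hf.maps hx), fun _ hx => h.tr _ (hf.maps hx)⟩

theorem map_c1 {R : E' → Matrix n n ℂ} (h : Ln Y R) {f : E → E'} (hf : SMap X Y f) :
    H.map hf h.c1 = (h.comp hf).c1 := by
  rw [c1, c1, map_smul, H.map_cls]
  exact congrArg _ (cls_congr fun x hx => by rw [pullC_sf (hf.c2 hx) (h.idf.s1 (hf.maps hx))])

theorem c1_congr (hX : Sub d X) {R : E → Matrix n n ℂ} (h : Ln X Q) (h' : Ln X R)
    (e : ∀ x ∈ X, Q x = R x) : h.c1 = h'.c1 := by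
  rw [c1_eq hX, c1_eq hX, sc_congr hX h.idf h'.idf e]

end Ln

/-- one projector is enough -/
theorem mem_Lam (hX : Sub d X) {a : H X} : a ∈ Lam X ↔ ∃ (n : Type) (_ : Fintype n)
    (_ : DecidableEq n) (Q : E → Matrix n n ℂ) (h : Ln X Q), a = h.c1 := by
  refine ⟨fun ha => ?_, fun ha => AddSubgroup.subset_closure ha⟩
  induction ha using AddSubgroup.closure_induction with
  | mem _ h => exact h
  | zero => exact ⟨_, _, _, _, Ln.one X, (Ln.c1_one hX).symm⟩
  | add _ _ _ _ h h' =>
    obtain ⟨n, _, _, Q, h, rfl⟩ := h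
    obtain ⟨m, _, _, Q', h', rfl⟩ := h'
    exact ⟨_, _, _, _, h.kron h', (h.c1_kron hX h').symm⟩
  | neg _ _ h =>
    obtain ⟨n, _, _, Q, h, rfl⟩ := h
    exact ⟨_, _, _, _, h.conj, (h.c1_conj hX).symm⟩

theorem Lam.conj (hX : Sub d X) {a : H X} (ha : a ∈ Lam X) : H.conj X a = a := by
  obtain ⟨n, _, _, Q, h, rfl⟩ := (mem_Lam hX).1 ha
  exact h.conj_c1 hX

theorem Lam.map (hY : Sub d Y) {f : E → E'} (hf : SMap X Y f) {a : H Y} (ha : a ∈ Lam Y) :
    H.map hf a ∈ Lam X := by
  obtain ⟨n, _, _, Q, h, rfl⟩ := (mem_Lam hY).1 ha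
  rw [h.map_c1 hf]
  exact Ln.c1_mem _

end Crest.Agent.X262.Lat
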