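import Crest.Agent.X262.Lat.Defs
import Crest.Agent.R208.DEG2

/-!
# Row 262, LAT (helper31): integrality of the products of integral classes

* `ItgStmt` : the integral of a product of `r` integral classes on a closed oriented manifold of
  dimension `2 r` is an integer;
* `Lam.mem_HD` : integral classes have degree two.
-/

set_option autoImplicit false

noncomputable section

namespace Crest.Agent.X262.Lat

open Crest.Agent.R208.F Crest.Agent.R208.FI Crest.Agent.R208.CW Crest.Agent.R208.T

/-- products of integral classes have integral periods -/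
def ItgStmt : Prop := ∀ (E : Type) [NormedAddCommGroup E] [NormedSpace ℝ E]
  [FiniteDimensional ℝ E] (X : Set E) (r : ℕ) (o : E → Ext E) (hX : Clo (2 * r) X)
  (ho : Ori (2 * r) X o), IsPreconnected X → 1 ≤ r → ∀ l : List (H X), (∀ a ∈ l, a ∈ Lam X) →
    l.length = r → ∃ m : ℤ, integ hX ho l.prod = m

variable {E : Type} [NormedAddCommGroup E] [NormedSpace ℝ E] [FiniteDimensional ℝ E] {X : Set E}
  {d : ℕ}

theorem Lam.mem_HD (hX : Sub d X) {a : H X} (ha : a ∈ Lam X) : a ∈ HD X (2 * 1) := by
  obtain ⟨n, _, _, Q, h, rfl⟩ := (mem_Lam hX).1 ha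
  rw [h.c1_eq hX]
  exact Submodule.smul_mem _ _ (sc_mem_HD hX h.idf 1)

end Crest.Agent.X262.Lat
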