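import Crest.Agent.X262.Lat.Cnx
import Crest.Agent.X262.Lat.LDefs
import Crest.Agent.X262.Man.PM

/-!
# Row 262, LAT (helper31): algebraic line bundles as fields of projectors

* `Cd ε a A c`  : `A g` are connection forms of `O(a)` in the frames `g`, with Chern form `c`;
* `Iso.cd`      : the connection of a projector field whose image is `O(a)`;
* `exists_iso`  : every Cartier divisor is the image of a projector field.
-/

set_option autoImplicit false
set_option linter.unusedSectionVars false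

open Filter Topology Set
open scoped Matrix ContDiff

noncomputable section

namespace Crest.Agent.X262.Lat

open Crest.Agent.R208.F Crest.Agent.R208.FI Crest.Agent.R208.CW Crest.Agent.R208.T
open Crest.Agent.X262.Man Crest.Agent.X262.PL
open Crest.Agent.X277 Crest.Agent.X277.Lef Crest.Agent.X277.AN.G1 Crest.Agent.X277.BD
open Crest.Agent.X277.BD.Br

variable {F : Type} [Field F] [Algebra ℂ F] {P : PModel ℂ F} {n : ℕ} {X : AnP P n}
  {E : Type} [NormedAddCommGroup E] [NormedSpace ℝ E] [FiniteDimensional ℝ E]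

/-- connection forms of `O(a)` with Chern form `c` -/
structure Cd (ε : Emb X.A E) (a : BD ℂ F) (A : F → E → Ext E) (c : E → Ext E) : Prop where
  ec : EC ε.X c
  deg : Hom 2 c
  deg1 : ∀ g, Hom 1 (A g)
  odd : ∀ g q, inv (A g q) = -A g q
  sm : ∀ x g, At a x g → ContDiffAt ℝ ∞ (A g) (ε.j x)
  cur : ∀ x g, At a x g → pb (Tan ε.X (ε.j x)).subtype (d (A g) (ε.j x) + c (ε.j x)) = 0
  chg : ∀ x g g', At a x g → At a x g' → ∀ u : E → ℂ, ContDiffAt ℝ 1 u (ε.j x) →
    (∀ᶠ y in 𝓝 x, u (ε.j y) = ev (g' / g) y) → pb (Tan ε.X (ε.j x)).subtype (A g' (ε.j x)) =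
      pb (Tan ε.X (ε.j x)).subtype (A g (ε.j x) + ang u (ε.j x))

variable (ε : Emb X.A E) {a : BD ℂ F}

theorem ev_amb {x : Pts P} {p : E → Prop} (h : ∀ᶠ y in 𝓝 x, p (ε.j y)) :
    ∀ᶠ q in 𝓝 (ε.j x), q ∈ ε.X → p q := by
  rw [← eventually_nhdsWithin_iff, Emb.X, ← ε.isClosedEmbedding.isEmbedding.map_nhds_eq,
    eventually_map]
  exact h

theorem hom_cn {N : Type} [Fintype N] [DecidableEq N] (s : E → N → ℂ) : Hom 1 (cn s) := fun y =>
  (degC_trace ((mDeg_hat (E := E) (drow (s y))).mul (mDeg_DD (fun y => colv (s y)) y))).2.smul _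

theorem Iso.cd {N : Type} [Fintype N] [DecidableEq N] {Q : E → Matrix N N ℂ} (h : Ln ε.X Q)
    {s : F → Pts P → N → ℂ} (hs : Iso X a (fun x => Q (ε.j x)) s) : ∃ A, Cd ε a A (fm Q) := by
  choose S h1 h2 using fun g => ε.exists_ext_on (isOpen_at a g) (hs.sm g)
  have h3 : ∀ {x g}, At a x g → ContDiffAt ℝ ∞ (S g) (ε.j x) := fun hx => h1 _ _ (ε.mem_op.2 hx)
  have h4 : ∀ {x g}, At a x g → S g (ε.j x) ≠ 0 := fun hx => by
    rw [h2 _ _ hx]
    exact hs.ne _ _ hx
  refine ⟨fun g => cn (S g), h.ec, isDeg_fm Q, fun g => hom_cn _, fun g => inv_cn _,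
    fun x g hx => contDiffAt_cn (h3 hx) (h4 hx), fun x g hx => ?_, fun x g g' hx hx' u hu e => ?_⟩
  · refine res_d_cn ε.sub (ε.mem x) h (h3 hx) (h4 hx) (ev_amb ε ?_)
    filter_upwards [hx.eventually] with y hy
    rw [h2 _ _ hy]
    exact hs.mem _ _ hy
  · refine res_cn ε.sub (ε.mem x) ((h3 hx).of_le one_le_inf) (h4 hx) ((h3 hx').of_le one_le_inf) hu
      (by rw [e.self_of_nhds]; exact hx'.ev_div_ne hx) (ev_amb ε ?_)
    filter_upwards [hx.eventually, hx'.eventually, e] with y hy hy' ey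
    rw [h2 _ _ hy, h2 _ _ hy', ey]
    exact hs.tr _ _ _ hy hy'

include ε in
/-- frames of a Cartier divisor -/
theorem exists_frames (ha : a ∈ On P) : ∃ (N : Type) (_ : Fintype N) (s : F → Pts P → N → ℂ),
    (∀ g, SmOn X.A {x | At a x g} (s g)) ∧ (∀ x g, At a x g → s g x ≠ 0) ∧
      ∀ x g g', At a x g → At a x g' → s g' x = ev (g' / g) x • s g x := by
  choose G hG using ha
  choose φ h1 _ h2 _ h3 using fun x => exists_contDiff_tsupport_subset (n := ⊤)
    ((ε.isOpen_op (isOpen_at a (G x))).mem_nhds (ε.mem_op.2 (hG x)))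
  obtain ⟨T, -, hT⟩ := isCompact_univ.elim_nhds_subcover (fun x => {y | φ x (ε.j y) ≠ 0})
    fun x _ => ((h2 x).continuous.comp ε.cont).continuousAt.eventually_ne
      (by simp only [Function.comp_apply, h3]; exact one_ne_zero)
  have h4 : ∀ {x y}, φ x (ε.j y) ≠ 0 → At a y (G x) := fun h =>
    ε.mem_op.1 (h1 _ (subset_tsupport _ h))
  refine ⟨T, inferInstance, fun g y i => φ i (ε.j y) * ev (g / G i) y, fun g k x hk hx => ?_,
    fun x g hx h0 => ?_, fun x g g' hx hx' => funext fun i => ?_⟩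
  · refine contDiffAt_pi.2 fun i => ?_
    have h5 : ContDiffAt ℝ ∞ (fun z => φ i (ε.j ((X.A.e k).symm z))) (X.A.e k x) :=
      ε.smOn_comp (U := univ) (fun _ _ => (h2 i).contDiffAt) k x hk trivial
    by_cases h : ε.j x ∈ tsupport (φ i)
    · exact (Complex.ofRealCLM.contDiff.contDiffAt.comp _ h5).mul
        (smOn_ev X _ k x hk (LP.mem_of_ne (hx.ev_div_ne (ε.mem_op.1 (h1 _ h)))))
    · have h6 : ∀ᶠ z in 𝓝 (X.A.e k x), ε.par k z ∉ tsupport (φ i) :=
        (ε.contDiffAt_par ((X.A.e k).map_source hk)).continuousAt.eventually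
          (p := fun q => q ∉ tsupport (φ i))
          (by rw [ε.par_e hk]; exact (isClosed_tsupport _).isOpen_compl.mem_nhds h)
      refine (contDiffAt_const (c := 0)).congr_of_eventuallyEq (h6.mono fun z hz => ?_)
      have h7 : φ i (ε.j ((X.A.e k).symm z)) = 0 := image_eq_zero_of_notMem_tsupport hz
      simp only [h7, Complex.ofReal_zero, zero_mul]
  · obtain ⟨i, hi, h5⟩ := mem_iUnion₂.1 (hT (mem_univ x))
    exact mul_ne_zero (Complex.ofReal_ne_zero.2 h5) (hx.ev_div_ne (h4 h5)) (congrFun h0 ⟨i, hi⟩)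
  · by_cases h : φ i (ε.j x) = 0
    · simp [h]
    · rw [Pi.smul_apply, smul_eq_mul, mul_left_comm, ← LP.v_mul _ (LP.mem_of_ne (hx'.ev_div_ne hx))
        (LP.mem_of_ne (hx.ev_div_ne (h4 h))), div_mul_div_cancel₀ hx.ne]

/-- **every Cartier divisor is the image of a field of projectors** -/
theorem exists_iso (ha : a ∈ On P) : ∃ (N : Type) (_ : Fintype N) (_ : DecidableEq N)
    (Q : E → Matrix N N ℂ) (s : F → Pts P → N → ℂ), Ln ε.X Q ∧ Iso X a (fun x => Q (ε.j x)) s := by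
  classical
  obtain ⟨N, _, s, h1, h2, h3⟩ := exists_frames ε ha
  choose G hG using ha
  have h4 : ∀ {x g}, At a x g → prj (s (G x) x) = prj (s g x) := fun hx => by
    rw [h3 _ _ _ hx (hG _), prj_smul ((hG _).ev_div_ne hx) (h2 _ _ hx)]
  have h5 : ∀ i j, X.A.Sm fun x => prj (s (G x) x) i j := fun i j => by
    refine smOn_univ.1 fun k x hk _ => ?_
    have h6 := sm_prj (h1 (G x) k x hk (hG x))
      (by rw [(X.A.e k).left_inv hk]; exact h2 _ _ (hG x)) i j
    refine h6.congr_of_eventuallyEq ?_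
    have h7 : ∀ᶠ z in 𝓝 (X.A.e k x), At a ((X.A.e k).symm z) (G x) :=
      ((X.A.e k).continuousAt_symm ((X.A.e k).map_source hk)).eventually
        (by rw [(X.A.e k).left_inv hk]; exact (hG x).eventually)
    exact h7.mono fun z hz => by simp only [h4 hz]
  choose Q h6 h7 using fun i j => ε.exists_ext (h5 i j)
  have h8 : ∀ x, (Matrix.of fun i j => Q i j (ε.j x)) = prj (s (G x) x) := fun x =>
    Matrix.ext fun i j => h7 i j x
  refine ⟨N, _, inferInstance, fun q => Matrix.of fun i j => Q i j q, s,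
    ⟨⟨fun q _ i j => (h6 i j).contDiffAt, ε.forall_X.2 fun x => ?_⟩, ε.forall_X.2 fun x => ?_,
      ε.forall_X.2 fun x => ?_⟩, h1, fun x g hx => ?_, h2, h3⟩
  · rw [h8, prj_idem (h2 _ _ (hG x))]
  · rw [h8, prj_herm]
  · rw [h8, prj_trace (h2 _ _ (hG x))]
  · simp only [h8, h4 hx, prj_mulVec (h2 _ _ hx)]

end Crest.Agent.X262.Lat
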