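import Crest.Agent.X262.Lat.UDefs
import Crest.Agent.X262.Man.PM
import Crest.Agent.X262.PD.Cx
import Crest.Agent.R235.HZFin_524

/-!
# Row 262, LAT (helper31): the integral classes of a surface are a unimodular lattice

* `nondeg_two` : Poincaré duality in degree two;
* `exists_basis` : integral classes `γ i` which span `H²`, with a unimodular intersection matrix;
* `uni_emb` : the two statements of `UNI`.
-/

set_option autoImplicit false
set_option linter.unusedSectionVars false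

open Matrix
open scoped Manifold ContDiff

noncomputable section

namespace Crest.Agent.X262.Lat

open Crest.Agent.R208.F Crest.Agent.R208.FI Crest.Agent.R208.CW Crest.Agent.R208.T
open Crest.Agent.X262.Man
open Crest.Agent.R275.Geo (Cn Atl)

theorem ip_repr {M : Type} [TopologicalSpace M] [T2Space M] [CompactSpace M]
    [ChartedSpace R240.E4 M] [IsManifold 𝓘(ℝ, R240.E4) ∞ M] {F : R240.Ch.Z2 M}
    (h : ∀ x, R240.W (R235.val F x) (R235.val F x) ≠ 0) {m : ℕ}
    (e : Module.Basis (Fin m) ℝ (R235.H2 M)) (a b : R235.H2 M) :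
    R235.ip F a b = ∑ i, e.repr a i * R235.ip F (e i) b := by
  have h1 := congrArg (fun z => R235.ipB F (R235.vol_of_ne h) z b) (e.sum_repr a)
  simp only [map_sum, map_smul, LinearMap.sum_apply, LinearMap.smul_apply, smul_eq_mul] at h1
  exact h1.symm

variable {M : Type} [TopologicalSpace M] [T2Space M] [CompactSpace M] {A : Atl 2 M}
  {E : Type} [NormedAddCommGroup E] [NormedSpace ℝ E] [FiniteDimensional ℝ E] (ε : Emb A E)

theorem nondeg_two {x : H ε.X} (hx : x ∈ HD ε.X (2 * 1))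
    (h : ∀ (w : E → Ext E) (hw : EC ε.X w), Hom 2 w → ε.integ (x * rcl hw) = 0) : x = 0 := by
  refine PD.nondeg_H ε.clo ε.isOri (by decide) fun y => ?_
  have hy : y ∈ ⨆ k, HD ε.X (2 * k) := by
    rw [HD_iSup]
    trivial
  refine Submodule.iSup_induction _ (motive := fun y => ε.integ (x * y) = 0) hy
    (fun k y hy => ?_) (by rw [mul_zero, map_zero])
    fun a b ha hb => by rw [mul_add, map_add, ha, hb, add_zero]
  by_cases hk : k = 1
  · subst hk
    obtain ⟨a, b, ha, hb, h1, h2, rfl⟩ := exists_rcl_HD hy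
    rw [mul_add, mul_smul_comm, map_add, map_smul, h a ha h1, h b hb h2, smul_zero, add_zero]
  · exact integ_HD ε.clo ε.isOri (by omega) (HD_mul hx hy)

theorem exists_basis (h1 : P1Stmt) (h2 : P2Stmt) (h3 : P3Stmt) {om : E → Ext E} (ho : EC ε.X om)
    (ho2 : Hom 2 om) (hp : ∀ i, ∀ z ∈ (A.e i).target, 0 < topC 2 (pull (ε.par i) (om * om) z)) :
    ∃ (m : ℕ) (γ : Fin m → H ε.X) (Q : Matrix (Fin m) (Fin m) ℤ), (∀ i, γ i ∈ Lam ε.X) ∧
      (∀ i j, ε.integ (γ i * γ j) = Q i j) ∧ IsUnit Q.det ∧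
      ∀ x ∈ HD ε.X (2 * 1), ∃ c : Fin m → ℂ, x = ∑ i, c i • γ i := by
  obtain ⟨F, hF⟩ := h1 M A E ε om ho ho2
  obtain ⟨hW, hI⟩ := h2 M A E ε om F ho ho2 hF hp
  have hV := R235.vol_of_ne hW
  obtain ⟨m, e, Q, e1, e2, e3⟩ := R235.HZFin_524.hzlat (Mf A) F hW
  have e4 : ∀ i, e i ∈ R235.HZ (Mf A) := fun i => by
    rw [e3]
    exact ⟨Pi.single i 1, by simp [Pi.single_apply]⟩
  choose N p a hl hc ha using e4
  choose R hR w hw hw2 hwa hwc using fun i => h3 M A E ε (N i) (p i) (a i) (hl i) (hc i)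
  have key : ∀ {u v : E → Ext E} (hu : EC ε.X u) (hv : EC ε.X v) {s t : R240.Ch.Z2 (Mf A)},
      Hom 2 u → Hom 2 v → Rp ε u s → Rp ε v t →
      ε.integ (rcl hu * rcl hv) = R235.ip F (R235.cls s) (R235.cls t) := by
    intro u v hu hv s t u2 v2 us vt
    rw [← rcl_mul, ε.integ_rcl, R235.ip_cls hV, hI u v s t hu u2 hv v2 us vt]
  have sp : ∀ {u : E → Ext E} (hu : EC ε.X u), Hom 2 u →
      ∃ c : Fin m → ℂ, rcl hu = ∑ i, c i • rcl (hw i) := by
    intro u hu u2
    obtain ⟨s, hs⟩ := h1 M A E ε u hu u2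
    obtain ⟨r, hr⟩ : ∃ r : Fin m → ℝ, ∀ b, R235.ip F (R235.cls s) b =
        ∑ i, r i * R235.ip F (R235.cls (a i)) b := ⟨_, fun b => by
      simp only [ha]
      exact ip_repr hW e _ b⟩
    refine ⟨fun i => r i, sub_eq_zero.1 (nondeg_two ε
      (sub_mem (rcl_mem_HD hu u2) (Submodule.sum_mem _ fun i _ =>
        Submodule.smul_mem _ _ (rcl_mem_HD _ (hw2 i)))) fun v hv v2 => ?_)⟩
    obtain ⟨t, ht⟩ := h1 M A E ε v hv v2
    rw [sub_mul, map_sub, key hu hv u2 v2 hs ht, Finset.sum_mul, map_sum, sub_eq_zero]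
    rw [hr, Complex.ofReal_sum]
    refine Finset.sum_congr rfl fun i _ => ?_
    rw [smul_mul_assoc, map_smul, key (hw i) hv (hw2 i) v2 (hwa i) ht, Complex.ofReal_mul]
    rfl
  refine ⟨m, fun i => rcl (hw i), Q, fun i => ?_, fun i j => ?_, e2, fun x hx => ?_⟩
  · simp only [hwc]
    exact (hR i).c1_mem
  · have h4 := (congrArg₂ (R235.ip F) (ha i) (ha j)).trans (e1 i j)
    rw [key (hw i) (hw j) (hw2 i) (hw2 j) (hwa i) (hwa j), h4, Complex.ofReal_intCast]
  · obtain ⟨u, v, hu, hv, u2, v2, rfl⟩ := exists_rcl_HD hx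
    obtain ⟨c, hc⟩ := sp hu u2
    obtain ⟨c', hc'⟩ := sp hv v2
    refine ⟨c + Complex.I • c', ?_⟩
    simp only [hc, hc', Pi.add_apply, Pi.smul_apply, add_smul, Finset.sum_add_distrib,
      Finset.smul_sum, smul_assoc]

theorem uni_emb (h1 : P1Stmt) (h2 : P2Stmt) (h3 : P3Stmt) {om : E → Ext E} (ho : EC ε.X om)
    (ho2 : Hom 2 om) (hp : ∀ i, ∀ z ∈ (A.e i).target, 0 < topC 2 (pull (ε.par i) (om * om) z)) :
    Submodule.span ℂ (Lam ε.X : Set (H ε.X)) = HD ε.X (2 * 1) ∧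
      ∀ x ∈ HD ε.X (2 * 1), (∀ y ∈ Lam ε.X, ∃ k : ℤ, ε.integ (x * y) = k) → x ∈ Lam ε.X := by
  obtain ⟨m, γ, Q, e1, e2, e3, e4⟩ := exists_basis ε h1 h2 h3 ho ho2 hp
  refine ⟨le_antisymm (Submodule.span_le.2 fun a ha => Lam.mem_HD ε.sub ha) fun x hx => ?_,
    fun x hx h => ?_⟩
  · obtain ⟨c, rfl⟩ := e4 x hx
    exact Submodule.sum_mem _ fun i _ => Submodule.smul_mem _ _ (Submodule.subset_span (e1 i))
  · obtain ⟨c, rfl⟩ := e4 x hx
    choose k hk using fun j => h _ (e1 j)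
    have h4 : c ᵥ* Q.map (Int.castRingHom ℂ) = fun j => (k j : ℂ) := funext fun j => by
      rw [← hk, Finset.sum_mul, map_sum]
      simp only [smul_mul_assoc, map_smul, e2]
      rfl
    have h5 : ∀ i, c i = ((k ᵥ* Q⁻¹) i : ℤ) := fun i => by
      have h6 := congrFun (congrArg (· ᵥ* (Q⁻¹).map (Int.castRingHom ℂ)) h4) i
      simp only [vecMul_vecMul, ← Matrix.map_mul, Matrix.mul_nonsing_inv Q e3,
        Matrix.map_one _ (map_zero _) (map_one _), vecMul_one] at h6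
      rw [h6]
      simp [vecMul, dotProduct]
    refine sum_mem fun i _ => ?_
    rw [h5, Int.cast_smul_eq_zsmul]
    exact zsmul_mem (e1 i) _

end Crest.Agent.X262.Lat
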