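import Crest.Agent.X262.Lat.Iso
import Crest.Agent.X262.Lat.Uni
import Crest.Agent.X262.Kah.ClsT
import Crest.Agent.X262.Man.Pt

/-!
# Row 262, LAT (helper31): `LAM`, `UNI`, `L11` for the de Rham theory

* `LamP`  : the integral classes of the de Rham theory;
* `C1Cd c1` : `c1` is the class of the Chern form of any connection;
* `lam_of`, `uni_of`, `l11_of`.
-/

set_option autoImplicit false
set_option linter.unusedSectionVars false
set_option linter.style.haveILetI false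

open scoped KaehlerDifferential

noncomputable section

namespace Crest.Agent.X262.Lat

open Crest.Agent.R208.F Crest.Agent.R208.FI Crest.Agent.R208.CW Crest.Agent.R208.T
open Crest.Agent.X262.Man Crest.Agent.X262.Coh Crest.Agent.X262.Kah
open Crest.Agent.X277 Crest.Agent.X277.Lef Crest.Agent.X277.AN.G1 Crest.Agent.X277.BD
open Crest.Agent.X277.BD.Br

/-- **the integral classes** -/
def LamP (X : SV) : AddSubgroup (HP X.P) := Lam (XP X.P)

/-- `c1` is the class of the Chern form of any connection -/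
def C1Cd (c1 : ∀ X : SV, BD ℂ X.F → HP X.P) : Prop :=
  ∀ (X : SV) (a : BD ℂ X.F) (A : X.F → Hm X.P.N → Ext (Hm X.P.N)) (c : Hm X.P.N → Ext (Hm X.P.N))
    (h : Cd (em X.P) a A c), a ∈ X.On → c1 X a = rcl h.ec

/-- a positive closed two-form on a surface -/
def OmStmt : Prop := ∀ (F : Type) [Field F] [Algebra ℂ F] (P : PModel ℂ F) (X : AnP P 2),
  ∃ om, EC (XP P) om ∧ R208.T.Hom 2 om ∧
    ∀ i, ∀ z ∈ (X.A.e i).target, 0 < topC 2 (pull ((emb X).par i) (om * om) z)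

variable {c1 : ∀ X : SV, BD ℂ X.F → HP X.P}

theorem C1Cd.iso (hc : C1Cd c1) {X : SV} {a : BD ℂ X.F} (ha : a ∈ X.On) {N : Type} [Fintype N]
    [DecidableEq N] {Q : Hm X.P.N → Matrix N N ℂ} (h : Ln (XP X.P) Q) {s : X.F → X.Pt → N → ℂ}
    (hs : Iso (an X.P) a (fun x => Q (jP X.P x)) s) : c1 X a = h.c1 := by
  obtain ⟨A, hA⟩ := Iso.cd (em X.P) h hs
  exact (hc X a A _ hA ha).trans (h.rcl_fm (subP X.P))

theorem C1Cd.mem (hc : C1Cd c1) {X : SV} {a : BD ℂ X.F} (ha : a ∈ X.On) : c1 X a ∈ LamP X := by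
  obtain ⟨N, _, _, Q, s, h, hs⟩ := exists_iso (em X.P) ha
  rw [hc.iso ha h hs]
  exact h.c1_mem

theorem prod_mem_dg {X : SV} (l : List (HP X.P)) (h : ∀ a ∈ l, a ∈ LamP X) :
    l.prod ∈ dgP X.P l.length := by
  induction l with
  | nil => exact one_mem_HD
  | cons a l ih =>
    rw [List.prod_cons, List.length_cons, add_comm l.length]
    exact dgP_mul (Lam.mem_HD (subP X.P) (h a List.mem_cons_self))
      (ih fun b hb => h b (List.mem_cons_of_mem _ hb))

theorem lam_of (typ : ∀ X : SV, ℕ → ℕ → Submodule ℂ (HP X.P)) (hI : ItgStmt) (hc : C1Cd c1) :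
    (thOf typ c1 LamP).LAM where
  dg X _ ha := Lam.mem_HD (subP X.P) ha
  cj X _ ha := Lam.conj (subP X.P) ha
  pb μ _ ha := Lam.map (subP _) (smapM μ) ha
  c1 _ _ ha := hc.mem ha
  itg X l h := by
    by_cases h1 : l.length = X.dim
    · rcases Nat.eq_zero_or_pos l.length with h2 | h2
      · obtain rfl := List.length_eq_zero_iff.1 h2
        exact ⟨1, (intP_one h1.symm).trans Int.cast_one.symm⟩
      · exact hI _ _ _ _ (cloP X.P) (oriP X.P) (isConnected_XP X.P).isPreconnected (h2.trans_eq h1) l h h1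
    · exact ⟨0, (intP_dg h1 (prod_mem_dg l h)).trans Int.cast_zero.symm⟩

theorem uni_of (typ : ∀ X : SV, ℕ → ℕ → Submodule ℂ (HP X.P)) (c1 : ∀ X : SV, BD ℂ X.F → HP X.P)
    (h1 : P1Stmt) (h2 : P2Stmt) (h3 : P3Stmt) (h4 : OmStmt) : (thOf typ c1 LamP).UNI := by
  intro X hX
  obtain ⟨A⟩ : Nonempty (AnP X.P 2) := hX ▸ nonempty_an X.P
  obtain ⟨om, e1, e2, e3⟩ := h4 _ X.P A
  obtain ⟨e4, e5⟩ := uni_emb (emb A) h1 h2 h3 e1 e2 e3
  exact ⟨e4, fun x hx h => e5 x hx fun y hy => (h y hy).imp fun _ hk =>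
    (intP_eq A _).symm.trans hk⟩

theorem l11_of (hL : L11AStmt) (hc : C1Cd c1) : (thOf typP c1 LamP).L11 := by
  intro X _ x hx ht
  obtain ⟨N, _, _, Q, h, rfl⟩ := (mem_Lam (subP X.P)).1 hx
  obtain ⟨u, hu, e⟩ := ht
  haveI := finite_kaehler X.P
  obtain ⟨a, ha, s, hs⟩ := hL _ X.P _ (Module.finBasis X.F Ω[X.F⁄ℂ]) (an X.P) _ (em X.P) N Q h u
    (fun i z hz => Fib.isType_iff.2 (hu i z hz)) e
  exact ⟨a, ha, (hc.iso ha h hs).symm⟩

end Crest.Agent.X262.Lat
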