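import Crest.Agent.X262.Lat.IDefs
import Crest.Agent.X262.Man.Ori
import Crest.Agent.R235.Defs_837

/-!
# Row 262, LAT (helper31): a complex surface as a smooth four-manifold

* `Mf A`       : the surface with the real charts `rch A i`;
* `Rp ε w a`   : the closed two-form `a` on `Mf A` is the restriction of the ambient form `w`;
* `P1Stmt`, `P2Stmt`, `P3Stmt` : forms, integrals and Chern forms correspond.
-/

set_option autoImplicit false
set_option linter.unusedSectionVars false
set_option linter.unusedVariables false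

open Set
open scoped Manifold ContDiff

noncomputable section

namespace Crest.Agent.X262.Lat

open Crest.Agent.R208.F Crest.Agent.R208.FI Crest.Agent.R208.CW Crest.Agent.R208.T
open Crest.Agent.X262.Man
open Crest.Agent.R275.Geo (Cn Atl)
open Crest.Agent.R240 (E4 W)

variable {M : Type} [TopologicalSpace M]

/-- the surface as a real manifold -/
def Mf (A : Atl 2 M) : Type := M

variable (A : Atl 2 M)

instance : TopologicalSpace (Mf A) := inferInstanceAs (TopologicalSpace M)

instance [T2Space M] : T2Space (Mf A) := inferInstanceAs (T2Space M)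

instance [CompactSpace M] : CompactSpace (Mf A) := inferInstanceAs (CompactSpace M)

/-- the real chart -/
def rch (i : A.ι) : OpenPartialHomeomorph (Mf A) E4 :=
  (A.e i).transHomeomorph (cL 2).symm.toHomeomorph

/-- a chart at `x` -/
def ci (x : M) : A.ι := (A.cover x).choose

theorem mem_ci (x : M) : x ∈ (A.e (ci A x)).source := (A.cover x).choose_spec

theorem rch_apply (i : A.ι) (x : M) : rch A i x = (cL 2).symm (A.e i x) := rfl

theorem rch_symm (i : A.ι) (u : E4) : (rch A i).symm u = (A.e i).symm (cL 2 u) := rfl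

theorem rch_source (i : A.ι) : (rch A i).source = (A.e i).source := rfl

theorem rch_target (i : A.ι) : (rch A i).target = cL 2 ⁻¹' (A.e i).target := rfl

instance : ChartedSpace E4 (Mf A) where
  atlas := range (rch A)
  chartAt x := rch A (ci A x)
  mem_chart_source x := mem_ci A x
  chart_mem_atlas _ := mem_range_self _

theorem chartAt_eq (x : Mf A) : chartAt E4 x = rch A (ci A x) := rfl

instance : IsManifold 𝓘(ℝ, E4) ∞ (Mf A) := by
  refine isManifold_of_contDiffOn _ _ _ ?_
  rintro _ _ ⟨i, rfl⟩ ⟨k, rfl⟩ u hu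
  simp only [modelWithCornersSelf_coe, modelWithCornersSelf_coe_symm, Function.comp_id,
    Function.id_comp, range_id, inter_univ, preimage_id] at hu ⊢
  have h1 : cL 2 u ∈ A.ov i k := hu
  exact ((cL 2).symm.contDiff.contDiffAt.comp u
    ((contDiffAt_tr h1).comp u (cL 2).contDiff.contDiffAt)).contDiffWithinAt

variable {A} {E : Type} [NormedAddCommGroup E] [NormedSpace ℝ E] [FiniteDimensional ℝ E]

/-- `a` is the restriction of the ambient form `w` -/
def Rp (ε : Emb A E) (w : E → Ext E) (a : R240.Ch.Z2 (Mf A)) : Prop :=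
  ∀ (x : Mf A) (u v : E4), R235.val a x u v =
    evA (Eu (2 * 2)) 2 (pull (ε.rpar (ci A x)) w (rch A (ci A x) x)) ![u, v]

/-- closed two-forms restrict -/
def P1Stmt : Prop := ∀ (M : Type) [TopologicalSpace M] [CompactSpace M] (A : Atl 2 M) (E : Type)
  [NormedAddCommGroup E] [NormedSpace ℝ E] [FiniteDimensional ℝ E] (ε : Emb A E)
  (w : E → Ext E), EC ε.X w → Hom 2 w → ∃ a, Rp ε w a

/-- the integrals agree -/
def P2Stmt : Prop := ∀ (M : Type) [TopologicalSpace M] [T2Space M] [CompactSpace M] (A : Atl 2 M)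
  (E : Type) [NormedAddCommGroup E] [NormedSpace ℝ E] [FiniteDimensional ℝ E] (ε : Emb A E)
  (om : E → Ext E) (F : R240.Ch.Z2 (Mf A)), EC ε.X om → Hom 2 om → Rp ε om F →
  (∀ i, ∀ z ∈ (A.e i).target, 0 < topC 2 (pull (ε.par i) (om * om) z)) →
    (∀ x, W (R235.val F x) (R235.val F x) ≠ 0) ∧
    ∀ (w w' : E → Ext E) (a b : R240.Ch.Z2 (Mf A)), EC ε.X w → Hom 2 w → EC ε.X w' → Hom 2 w' →
      Rp ε w a → Rp ε w' b → R235.pI F a b = ε.Int (w * w')

/-- Chern forms represent the classes `h.c1` -/
def P3Stmt : Prop := ∀ (M : Type) [TopologicalSpace M] [T2Space M] [CompactSpace M] (A : Atl 2 M)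
  (E : Type) [NormedAddCommGroup E] [NormedSpace ℝ E] [FiniteDimensional ℝ E] (ε : Emb A E)
  (N : ℕ) (p : Mf A → Matrix (Fin N) (Fin N) ℂ) (a : R240.Ch.Z2 (Mf A)),
  R235.IsLine p → R235.IsChern p a →
    ∃ (Q : E → Matrix (Fin N) (Fin N) ℂ) (h : Ln ε.X Q) (w : E → Ext E) (hw : EC ε.X w),
      Hom 2 w ∧ Rp ε w a ∧ rcl hw = h.c1

end Crest.Agent.X262.Lat
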